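import Vale.Agent.P174.Howie.Start

/-!
Consequences: closure under extensions by locally indicable groups, and abelian groups.
-/

namespace Vale.Agent.P174.Howie

open Monoid

/-- Every nontrivial finitely generated subgroup maps onto the integers. -/
def LocallyIndicable (Q : Type) [Group Q] : Prop :=
  ∀ L : Subgroup Q, L.FG → L ≠ ⊥ → ∃ φ : L →* Multiplicative ℤ, φ ≠ 1

variable {G : Type} [Group G]

/-- If every finitely generated subgroup maps onto `ℤ` or has solvable systems, then so has `G`. -/
theorem howieSolvable_of_local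
    (H : ∀ L : Subgroup G, L.FG → (∃ φ : L →* Multiplicative ℤ, φ ≠ 1) ∨ HowieSolvable L) :
    HowieSolvable G := by
  refine howieSolvable_of_subgroups fun L hL hq => (H L hL).resolve_left ?_
  rintro ⟨φ, hφ⟩
  refine hφ (MonoidHom.ext fun x => ?_)
  have h := DFunLike.congr_fun (hq ((Int.castAddHom ℚ).toMultiplicative.comp φ)) x
  have h' : ((Multiplicative.toAdd (φ x) : ℤ) : ℚ) = 0 := congrArg Multiplicative.toAdd h
  exact toAdd_eq_zero.1 (by exact_mod_cast h')

/-- Solvability of all nonsingular systems passes to groups that embed. -/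
theorem howieSolvable_of_injective {L : Type} [Group L] (f : L →* G) (hf : Function.Injective f)
    (hG : HowieSolvable G) : HowieSolvable L := by
  intro m n w hw
  let c : Coprod L (FreeGroup (Fin n)) →* Coprod G (FreeGroup (Fin n)) :=
    Coprod.map f (MonoidHom.id _)
  have hexp : (expVec n).comp c = expVec n := by
    refine Coprod.hom_ext ?_ ?_
    · ext g; simp [c, expVec]
    · exact FreeGroup.ext_hom _ _ fun j => by simp [c, expVec]
  have hns : Nonsingular fun i => c (w i) := by
    have : expMatrix (fun i => c (w i)) = expMatrix w := by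
      funext i
      exact congrArg Multiplicative.toAdd (DFunLike.congr_fun hexp (w i))
    simpa [Nonsingular, this] using hw
  obtain ⟨K, _, φ, x, hφ, hx⟩ := hG m n _ hns
  refine ⟨K, inferInstance, φ.comp f, x, hφ.comp hf, fun i => ?_⟩
  have h : Coprod.lift (φ.comp f) (FreeGroup.lift x) =
      (Coprod.lift φ (FreeGroup.lift x)).comp c := by
    refine Coprod.hom_ext ?_ ?_
    · ext g; simp [c]
    · exact FreeGroup.ext_hom _ _ fun j => by simp [c]
  rw [h]
  exact hx i

/-- Extensions with locally indicable quotient. -/
theorem howieSolvable_extension (N : Subgroup G) [N.Normal] (hN : HowieSolvable N)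
    (hQ : LocallyIndicable (G ⧸ N)) : HowieSolvable G := by
  refine howieSolvable_of_local fun L hL => ?_
  by_cases hb : L.map (QuotientGroup.mk' N) = ⊥
  · refine Or.inr (howieSolvable_of_injective (Subgroup.inclusion ?_)
      (Subgroup.inclusion_injective _) hN)
    rwa [Subgroup.map_eq_bot_iff, QuotientGroup.ker_mk'] at hb
  · obtain ⟨S, hS⟩ := hL
    have hfg : (L.map (QuotientGroup.mk' N)).FG := by
      classical
      exact ⟨S.image (QuotientGroup.mk' N), by rw [Finset.coe_image, ← MonoidHom.map_closure, hS]⟩
    obtain ⟨φ, hφ⟩ := hQ _ hfg hb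
    refine Or.inl ⟨φ.comp ((QuotientGroup.mk' N).subgroupMap L), fun h => hφ ?_⟩
    refine MonoidHom.ext fun y => ?_
    obtain ⟨x, rfl⟩ := (QuotientGroup.mk' N).subgroupMap_surjective L y
    exact DFunLike.congr_fun h x

/-- Nonsingular systems over abelian groups are solvable in an abelian overgroup. -/
theorem howieSolvable_of_comm (hc : ∀ a b : G, a * b = b * a) : HowieSolvable G := by
  letI : CommGroup G := { ‹Group G› with mul_comm := hc }
  intro m n w hw
  classical
  let Ψ : Coprod G (FreeGroup (Fin n)) →* G × Multiplicative (Fin n → ℤ) :=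
    (Coprod.lift (MonoidHom.id G) 1).prod (expVec n)
  let R : Subgroup (G × Multiplicative (Fin n → ℤ)) := Subgroup.closure (Set.range fun i => Ψ (w i))
  let π := QuotientGroup.mk' R
  refine ⟨_, inferInstance, π.comp (MonoidHom.inl G _),
    fun j => π (1, Multiplicative.ofAdd (Pi.single j 1)), ?_, fun i => ?_⟩
  · refine (injective_iff_map_eq_one _).2 fun g hg => ?_
    have hg' : ((g, 1) : G × Multiplicative (Fin n → ℤ)) ∈ R := (QuotientGroup.eq_one_iff _).1 hg
    have key : ∀ z ∈ R, ∃ k : Fin m → ℤ, z = ∏ i, Ψ (w i) ^ k i := by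
      intro z hz
      induction hz using Subgroup.closure_induction with
      | mem z hz =>
        obtain ⟨i, rfl⟩ := hz
        exact ⟨Pi.single i 1, by rw [Finset.prod_eq_single i] <;> simp +contextual⟩
      | one => exact ⟨0, by simp⟩
      | mul a b _ _ ha hb =>
        obtain ⟨k, rfl⟩ := ha
        obtain ⟨l, rfl⟩ := hb
        exact ⟨k + l, by simp [zpow_add, Finset.prod_mul_distrib]⟩
      | inv a _ ha =>
        obtain ⟨k, rfl⟩ := ha
        exact ⟨-k, by simp⟩
    obtain ⟨k, hk⟩ := key _ hg'
    have h2 : ∀ j, ∑ i, k i * expMatrix w i j = 0 := by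
      intro j
      have := congrArg (fun z : G × Multiplicative (Fin n → ℤ) => Multiplicative.toAdd z.2 j) hk
      simp [Ψ, Prod.snd_prod, toAdd_prod, Finset.sum_apply] at this
      simpa [expMatrix] using this.symm
    have hk0 : ∀ i, k i = 0 := by
      have hli := Fintype.linearIndependent_iff.1 (linearIndependent_of_nonsingular hw)
        (fun i => (k i : ℚ)) (funext fun j => ?_)
      · exact fun i => by exact_mod_cast hli i
      · simp only [Finset.sum_apply, Pi.smul_apply, smul_eq_mul, Matrix.row_apply,
          Matrix.map_apply, Pi.zero_apply]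
        exact_mod_cast h2 j
    have h1 := congrArg Prod.fst hk
    simpa [hk0] using h1
  · have h : Coprod.lift (π.comp (MonoidHom.inl G _))
        (FreeGroup.lift fun j => π (1, Multiplicative.ofAdd (Pi.single j 1))) = π.comp Ψ := by
      refine Coprod.hom_ext ?_ ?_
      · ext g; simp [Ψ, expVec]
      · exact FreeGroup.ext_hom _ _ fun j => by simp [Ψ, expVec]
    rw [h]
    exact (QuotientGroup.eq_one_iff _).2 (Subgroup.subset_closure ⟨i, rfl⟩)

end Vale.Agent.P174.Howie
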