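import Mathlib

/-!
Words in labelled graphs: signed sums, labels, walks, lifts to the rational cover.
-/

namespace Vale.Agent.P174.Howie

variable {E V G : Type}

/-- The sign of an exponent. -/
def sgn (b : Bool) : ℚ := if b then 1 else -1

/-- The signed sum of an edge function along a word. -/
def esum (φ : E → ℚ) : List (E × Bool) → ℚ
  | [] => 0
  | (e, b) :: l => sgn b * φ e + esum φ l

theorem esum_append (φ : E → ℚ) (a b : List (E × Bool)) :
    esum φ (a ++ b) = esum φ a + esum φ b := by
  induction a with
  | nil => simp [esum]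
  | cons p a ih => obtain ⟨e, s⟩ := p; simp [esum, ih, add_assoc]

theorem esum_invRev (φ : E → ℚ) (a : List (E × Bool)) :
    esum φ (FreeGroup.invRev a) = - esum φ a := by
  induction a with
  | nil => simp [esum]
  | cons p a ih =>
    obtain ⟨e, s⟩ := p
    rw [FreeGroup.invRev_cons, esum_append, ih]
    cases s <;> simp [esum, sgn, FreeGroup.invRev]

/-- The value of one letter. -/
def lval [Group G] (lab : E → G) (p : E × Bool) : G := if p.2 then lab p.1 else (lab p.1)⁻¹

/-- The value of a word. -/
def wval [Group G] (lab : E → G) (l : List (E × Bool)) : G := (l.map (lval lab)).prod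

theorem wval_append [Group G] (lab : E → G) (a b : List (E × Bool)) :
    wval lab (a ++ b) = wval lab a * wval lab b := by simp [wval]

theorem wval_invRev [Group G] (lab : E → G) (a : List (E × Bool)) :
    wval lab (FreeGroup.invRev a) = (wval lab a)⁻¹ := by
  induction a with
  | nil => simp [wval]
  | cons p a ih =>
    obtain ⟨e, s⟩ := p
    rw [FreeGroup.invRev_cons, wval_append, ih]
    cases s <;> simp [wval, lval, FreeGroup.invRev]

theorem wval_pair [Group G] (lab : E → G) (e : E) (b : Bool) :
    wval lab [(e, b), (e, !b)] = 1 := by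
  cases b <;> simp [wval, lval]

theorem esum_pair (φ : E → ℚ) (e : E) (b : Bool) : esum φ [(e, b), (e, !b)] = 0 := by
  cases b <;> simp [esum, sgn]

/-- Start point of a letter. -/
def lsrc (src tgt : E → V) (p : E × Bool) : V := if p.2 then src p.1 else tgt p.1

/-- End point of a letter. -/
def ltgt (src tgt : E → V) (p : E × Bool) : V := if p.2 then tgt p.1 else src p.1

/-- The word is a walk from `v` to `w`. -/
def Walk (src tgt : E → V) : V → List (E × Bool) → V → Prop
  | v, [], w => v = w
  | v, p :: l, w => lsrc src tgt p = v ∧ Walk src tgt (ltgt src tgt p) l w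

/-- The lift of a word to the rational cover, starting at level `r`. -/
def lift (f : E → ℚ) : ℚ → List (E × Bool) → List ((E × ℚ) × Bool)
  | _, [] => []
  | r, (e, b) :: l =>
    ((e, if b then r else r - f e), b) :: lift f (r + sgn b * f e) l

theorem lift_append (f : E → ℚ) : ∀ (r : ℚ) (a b : List (E × Bool)),
    lift f r (a ++ b) = lift f r a ++ lift f (r + esum f a) b := by
  intro r a
  induction a generalizing r with
  | nil => intro b; simp [lift, esum]
  | cons p a ih =>
    intro b
    obtain ⟨e, s⟩ := p
    simp [lift, esum, ih, add_assoc]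

theorem lift_invRev (f : E → ℚ) : ∀ (r : ℚ) (a : List (E × Bool)),
    lift f (r + esum f a) (FreeGroup.invRev a) = FreeGroup.invRev (lift f r a) := by
  intro r a
  induction a generalizing r with
  | nil => simp [lift, esum]
  | cons p a ih =>
    obtain ⟨e, s⟩ := p
    rw [FreeGroup.invRev_cons, lift_append]
    simp only [lift]
    rw [FreeGroup.invRev_cons]
    have h1 : r + esum f ((e, s) :: a) = (r + sgn s * f e) + esum f a := by simp [esum]; ring
    rw [h1, ih, esum_invRev]
    congr 1
    cases s <;> simp [lift, sgn, FreeGroup.invRev]; ring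

theorem wval_lift [Group G] (lab : E → G) (f : E → ℚ) : ∀ (r : ℚ) (a : List (E × Bool)),
    wval (fun x : E × ℚ => lab x.1) (lift f r a) = wval lab a := by
  intro r a
  induction a generalizing r with
  | nil => simp [wval, lift]
  | cons p a ih =>
    obtain ⟨e, s⟩ := p
    have h := ih (r + sgn s * f e)
    simp only [wval] at h
    simp only [wval, lift, List.map_cons, List.prod_cons, h]
    rfl

theorem map_fst_lift (f : E → ℚ) : ∀ (r : ℚ) (a : List (E × Bool)),
    (lift f r a).map (fun x => x.1.1) = a.map Prod.fst := by
  intro r a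
  induction a generalizing r with
  | nil => simp [lift]
  | cons p a ih => obtain ⟨e, s⟩ := p; simp [lift, ih]

theorem walk_lift (src tgt : E → V) (f : E → ℚ) : ∀ (a : List (E × Bool)) (r : ℚ) (v w : V),
    Walk src tgt v a w →
    Walk (fun x : E × ℚ => (src x.1, x.2)) (fun x : E × ℚ => (tgt x.1, x.2 + f x.1))
      (v, r) (lift f r a) (w, r + esum f a) := by
  intro a
  induction a with
  | nil => intro r v w h; simp [Walk, lift, esum] at *; exact h
  | cons p a ih =>
    intro r v w h
    obtain ⟨e, s⟩ := p
    obtain ⟨h1, h2⟩ := h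
    refine ⟨?_, ?_⟩
    · cases s <;> simp [lsrc] at * <;> exact h1
    · have := ih (r + sgn s * f e) _ w h2
      rw [show r + esum f ((e, s) :: a) = (r + sgn s * f e) + esum f a by simp [esum]; ring]
      cases s <;> simp [ltgt, sgn, sub_eq_add_neg] at * <;> exact this

/-- Along the cover, a power of the level as test function gives a polynomial in the level whose
top coefficient is the signed sum downstairs. -/
theorem esum_lift_pow (f φ : E → ℚ) (k : ℕ) : ∀ (l : List (E × Bool)) (d : ℚ),
    ∃ a : ℕ → ℚ, ∀ r : ℚ, esum (fun x : E × ℚ => φ x.1 * x.2 ^ k) (lift f (r + d) l) =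
      r ^ k * esum φ l + ∑ j ∈ Finset.range k, a j * r ^ j := by
  intro l
  induction l with
  | nil => intro d; exact ⟨0, fun r => by simp [lift, esum]⟩
  | cons p l ih =>
    intro d
    obtain ⟨e, s⟩ := p
    obtain ⟨a, ha⟩ := ih (d + sgn s * f e)
    let c : ℚ := if s then d else d - f e
    refine ⟨fun j => a j + sgn s * φ e * (c ^ (k - j) * (k.choose j : ℚ)), fun r => ?_⟩
    have hlev : (if s then r + d else r + d - f e) = r + c := by
      cases s <;> simp [c]; ring
    simp only [lift, esum, hlev]
    rw [show r + d + sgn s * f e = r + (d + sgn s * f e) by ring, ha r, add_pow,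
      Finset.sum_range_succ]
    simp only [add_mul, Finset.sum_add_distrib, mul_add, Finset.mul_sum, Nat.sub_self, pow_zero,
      Nat.choose_self, Nat.cast_one, mul_one]
    rw [show ∑ i ∈ Finset.range k, sgn s * φ e * (c ^ (k - i) * (k.choose i : ℚ)) * r ^ i =
      ∑ i ∈ Finset.range k, sgn s * (φ e * (r ^ i * c ^ (k - i) * (k.choose i : ℚ))) from
      Finset.sum_congr rfl fun i _ => by ring]
    ring

end Vale.Agent.P174.Howie
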