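import Mathlib
import Vale.Agent.P174.Howie.Words

/-!
Finite derivations in labelled 2-complexes and their lifts to rational cyclic covers.
-/

namespace Vale.Agent.P174.Howie

variable {E V C G : Type}

/-- `l'` is `l` with a cancelling pair or an oriented cell of `P` inserted. -/
def Ins (bd : C → List (E × Bool)) (P : C → Prop) (l l' : List (E × Bool)) : Prop :=
  ∃ A B blk, l = A ++ B ∧ l' = A ++ blk ++ B ∧
    ((∃ e b, blk = [(e, b), (e, !b)]) ∨
      ∃ c, P c ∧ (blk = bd c ∨ blk = FreeGroup.invRev (bd c)))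

/-- A labelled complex with coefficient edges (`lab e = some g`), unknown edges (`lab e = none`),
relator cells, equation cells with independent rows, and a derivation `st`. -/
structure Dg (G : Type) [Group G] where
  /-- vertices -/
  V : Type
  /-- edges -/
  E : Type
  /-- cells -/
  C : Type
  /-- start -/
  src : E → V
  /-- end -/
  tgt : E → V
  /-- labels -/
  lab : E → Option G
  /-- cell boundaries -/
  bd : C → List (E × Bool)
  /-- base point of a cell -/
  base : C → V
  /-- equation cells -/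
  isW : C → Prop
  rel : ∀ c, ¬ isW c →
    (∀ p ∈ bd c, lab p.1 ≠ none) ∧ wval (fun e => (lab e).getD 1) (bd c) = 1
  bd_walk : ∀ c, Walk src tgt (base c) (bd c) (base c)
  indep : ∀ k : C →₀ ℚ, (∀ c ∈ k.support, isW c) →
    (∀ φ : E → ℚ, (∀ e, lab e ≠ none → φ e = 0) →
      k.sum (fun c v => v * esum φ (bd c)) = 0) → k = 0
  /-- number of steps -/
  N : ℕ
  /-- base point -/
  v0 : V
  /-- states of the derivation -/
  st : ℕ → List (E × Bool)
  st_zero : st 0 = []
  st_walk : ∀ k ≤ N, Walk src tgt v0 (st k) v0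
  step : ∀ k < N, Ins bd (fun _ => True) (st k) (st (k + 1)) ∨
    Ins bd (fun _ => True) (st (k + 1)) (st k)

variable [Group G]

/-- The label with default value `1`. -/
def Dg.gl (D : Dg G) (e : D.E) : G := (D.lab e).getD 1

open Classical in
/-- Edges used by the derivation. -/
noncomputable def Dg.Eu (D : Dg G) : Finset D.E :=
  (Finset.range (D.N + 1)).biUnion fun k => ((D.st k).map Prod.fst).toFinset

open Classical in
/-- Vertices used by the derivation. -/
noncomputable def Dg.Vu (D : Dg G) : Finset D.V :=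
  insert D.v0 (D.Eu.image D.src ∪ D.Eu.image D.tgt)

/-- Total length of the derivation. -/
def Dg.total (D : Dg G) : ℕ := ∑ k ∈ Finset.range (D.N + 1), (D.st k).length

/-- The well-founded measure: room left for the image to grow. -/
noncomputable def Dg.measure (D : Dg G) : ℕ := 3 * D.total + 1 - (D.Eu.card + D.Vu.card)

theorem Dg.mem_Eu (D : Dg G) {k : ℕ} (hk : k ≤ D.N) {p : D.E × Bool} (hp : p ∈ D.st k) :
    p.1 ∈ D.Eu := by
  classical
  exact Finset.mem_biUnion.2 ⟨k, Finset.mem_range.2 (by omega),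
    List.mem_toFinset.2 (List.mem_map_of_mem hp)⟩

theorem Dg.card_le (D : Dg G) : D.Eu.card ≤ D.total ∧ D.Eu.card + D.Vu.card ≤ 3 * D.total + 1 := by
  classical
  have h1 : D.Eu.card ≤ D.total := Finset.card_biUnion_le.trans
    (Finset.sum_le_sum fun k _ => (List.toFinset_card_le _).trans (by simp))
  have h2 : D.Vu.card ≤ D.Eu.card + D.Eu.card + 1 :=
    (Finset.card_insert_le _ _).trans (Nat.add_le_add_right ((Finset.card_union_le _ _).trans
      (Nat.add_le_add Finset.card_image_le Finset.card_image_le)) _)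
  exact ⟨h1, by omega⟩

theorem Dg.v0_mem (D : Dg G) : D.v0 ∈ D.Vu := by
  classical
  exact Finset.mem_insert_self _ _

theorem Dg.src_mem (D : Dg G) {e : D.E} (h : e ∈ D.Eu) : D.src e ∈ D.Vu := by
  classical
  exact Finset.mem_insert_of_mem (Finset.mem_union_left _ (Finset.mem_image_of_mem D.src h))

theorem Dg.tgt_mem (D : Dg G) {e : D.E} (h : e ∈ D.Eu) : D.tgt e ∈ D.Vu := by
  classical
  exact Finset.mem_insert_of_mem (Finset.mem_union_right _ (Finset.mem_image_of_mem D.tgt h))

/-- The cells whose boundary has signed sum zero. -/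
def Dg.Closed (D : Dg G) (f : D.E → ℚ) : Type := {c : D.C // esum f (D.bd c) = 0}

open Classical in
theorem moments_eq_zero {α : Type} (k : α × ℚ →₀ ℚ)
    (h : ∀ (j : ℕ) (c : α), ∑ x ∈ k.support with x.1 = c, k x * x.2 ^ j = 0) : k = 0 := by
  classical
  ext ⟨c, r₀⟩
  by_contra hne
  let S := k.support.filter fun x => x.1 = c
  let R := (S.image Prod.snd).erase r₀
  let q : Polynomial ℚ := ∏ r ∈ R, (Polynomial.X - Polynomial.C r)
  have h0 : ∑ x ∈ S, k x * q.eval x.2 = 0 := by
    simp only [Polynomial.eval_eq_sum_range (p := q), Finset.mul_sum]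
    rw [Finset.sum_comm]
    refine Finset.sum_eq_zero fun j _ => ?_
    rw [show ∑ x ∈ S, k x * (q.coeff j * x.2 ^ j) = q.coeff j * ∑ x ∈ S, k x * x.2 ^ j by
      rw [Finset.mul_sum]; exact Finset.sum_congr rfl fun x _ => by ring, h j c, mul_zero]
  rw [Finset.sum_eq_single (c, r₀)] at h0
  · have hq : q.eval r₀ ≠ 0 := by
      simp only [q, Polynomial.eval_prod, Finset.prod_ne_zero_iff, Polynomial.eval_sub,
        Polynomial.eval_X, Polynomial.eval_C]
      intro r hr
      exact sub_ne_zero.2 (Finset.ne_of_mem_erase hr).symm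
    exact (mul_ne_zero (by simpa using hne) hq) h0
  · rintro ⟨c', r⟩ hx hxne
    have hc : c' = c := (Finset.mem_filter.1 hx).2
    have hr : r ∈ R := Finset.mem_erase.2
      ⟨fun hr => hxne (by rw [hc, hr]), Finset.mem_image.2 ⟨(c', r), hx, rfl⟩⟩
    simp only [q, Polynomial.eval_prod]
    rw [Finset.prod_eq_zero hr (by simp), mul_zero]
  · intro hx
    have : k (c, r₀) = 0 := by
      by_contra h'
      exact hx (Finset.mem_filter.2 ⟨Finsupp.mem_support_iff.2 h', rfl⟩)
    simp [this]

open Classical in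
theorem indep_lift (D : Dg G) (f : D.E → ℚ) (k : D.Closed f × ℚ →₀ ℚ)
    (hW : ∀ x ∈ k.support, D.isW x.1.1)
    (h : ∀ φ : D.E × ℚ → ℚ, (∀ e, D.lab e.1 ≠ none → φ e = 0) →
      k.sum (fun x v => v * esum φ (lift f x.2 (D.bd x.1.1))) = 0) : k = 0 := by
  classical
  apply moments_eq_zero
  intro j
  induction j using Nat.strong_induction_on with
  | _ j ih =>
    let S : D.C →₀ ℚ := k.sum fun x v => Finsupp.single x.1.1 (v * x.2 ^ j)
    have hS : ∀ c : D.Closed f, S c.1 = ∑ x ∈ k.support with x.1 = c, k x * x.2 ^ j := by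
      intro c
      simp only [S, Finsupp.sum, Finsupp.finsetSum_apply, Finsupp.single_apply]
      rw [Finset.sum_filter]
      refine Finset.sum_congr rfl fun x _ => ?_
      by_cases hx : x.1 = c
      · simp [hx]
      · rw [if_neg hx, if_neg (fun h' => hx (Subtype.ext h'))]
    intro c
    rw [← hS c]
    suffices S = 0 by simp [this]
    refine D.indep S (fun a ha => ?_) fun φ hφ => ?_
    · by_contra hcon
      refine Finsupp.mem_support_iff.1 ha ?_
      simp only [S, Finsupp.sum, Finsupp.finsetSum_apply, Finsupp.single_apply]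
      refine Finset.sum_eq_zero fun x hx => if_neg fun he => ?_
      exact hcon (he ▸ hW x hx)
    · have h1 := h (fun y => φ y.1 * y.2 ^ j) fun e he => by simp [hφ e.1 he]
      have hex : ∀ x : D.Closed f, ∃ a : ℕ → ℚ, ∀ r : ℚ,
          esum (fun y : D.E × ℚ => φ y.1 * y.2 ^ j) (lift f r (D.bd x.1)) =
          r ^ j * esum φ (D.bd x.1) + ∑ i ∈ Finset.range j, a i * r ^ i := by
        intro x
        obtain ⟨a, ha⟩ := esum_lift_pow f φ j (D.bd x.1) 0
        exact ⟨a, fun r => by simpa using ha r⟩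
      choose a ha using hex
      simp only [Finsupp.sum, ha, mul_add, Finset.sum_add_distrib] at h1
      have h2 : ∑ x ∈ k.support, k x * ∑ i ∈ Finset.range j, a x.1 i * x.2 ^ i = 0 := by
        simp only [Finset.mul_sum]
        rw [Finset.sum_comm]
        refine Finset.sum_eq_zero fun i hi => ?_
        rw [← Finset.sum_fiberwise_of_maps_to (g := fun x : D.Closed f × ℚ => x.1)
          (t := k.support.image fun x => x.1) (fun x hx => Finset.mem_image_of_mem _ hx)]
        refine Finset.sum_eq_zero fun c' _ => ?_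
        have h3 := ih i (Finset.mem_range.1 hi) c'
        calc ∑ x ∈ k.support with x.1 = c', k x * (a x.1 i * x.2 ^ i)
            = ∑ x ∈ k.support with x.1 = c', a c' i * (k x * x.2 ^ i) :=
              Finset.sum_congr rfl fun x hx => by rw [(Finset.mem_filter.1 hx).2]; ring
          _ = 0 := by rw [← Finset.mul_sum, h3, mul_zero]
      rw [h2, add_zero] at h1
      calc S.sum (fun c v => v * esum φ (D.bd c))
          = k.sum (fun x v => v * x.2 ^ j * esum φ (D.bd x.1.1)) := by
            simp only [S]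
            rw [Finsupp.sum_sum_index (fun _ => by simp) (fun _ _ _ => by ring)]
            exact Finsupp.sum_congr fun x _ => Finsupp.sum_single_index (by simp)
        _ = 0 := (Finset.sum_congr rfl fun x _ => by ring).trans h1

/-- Cells of the derivation have signed sum zero. -/
def Dg.Cocycle (D : Dg G) (f : D.E → ℚ) : Prop :=
  ∀ c, (∀ p ∈ D.bd c, p.1 ∈ D.Eu) → esum f (D.bd c) = 0

theorem Dg.esum_st (D : Dg G) {f : D.E → ℚ} (hf : D.Cocycle f) :
    ∀ k ≤ D.N, esum f (D.st k) = 0 := by
  have key : ∀ l l', Ins D.bd (fun _ => True) l l' → (∀ p ∈ l', p.1 ∈ D.Eu) →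
      esum f l' = esum f l := by
    rintro l l' ⟨A, B, blk, rfl, rfl, hblk⟩ hmem
    have h0 : esum f blk = 0 := by
      rcases hblk with ⟨e, b, rfl⟩ | ⟨c, -, rfl | rfl⟩
      · exact esum_pair f e b
      · exact hf c fun p hp => hmem p (by simp [hp])
      · rw [esum_invRev, hf c (fun p hp => hmem (p.1, !p.2)
          (List.mem_append_left _ (List.mem_append_right _ ?_))), neg_zero]
        simpa [FreeGroup.invRev] using hp
    simp only [esum_append, h0, add_zero]
  intro k
  induction k with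
  | zero => intro _; simp [D.st_zero, esum]
  | succ k ih =>
    intro hk
    have hk' : k ≤ D.N := by omega
    rcases D.step k (by omega) with h | h
    · rw [key _ _ h fun p hp => D.mem_Eu hk hp, ih hk']
    · rw [← key _ _ h fun p hp => D.mem_Eu hk' hp, ih hk']

/-- The lifted derivation. -/
def Dg.cover (D : Dg G) (f : D.E → ℚ) (hf : D.Cocycle f) : Dg G where
  V := D.V × ℚ
  E := D.E × ℚ
  C := D.Closed f × ℚ
  src x := (D.src x.1, x.2)
  tgt x := (D.tgt x.1, x.2 + f x.1)
  lab x := D.lab x.1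
  bd x := lift f x.2 (D.bd x.1.1)
  base x := (D.base x.1.1, x.2)
  isW x := D.isW x.1.1
  rel x hx := by
    obtain ⟨h1, h2⟩ := D.rel x.1.1 hx
    refine ⟨fun p hp => ?_, ?_⟩
    · have : p.1.1 ∈ (lift f x.2 (D.bd x.1.1)).map (fun y => y.1.1) :=
        List.mem_map.2 ⟨p, hp, rfl⟩
      rw [map_fst_lift] at this
      obtain ⟨q, hq, hqe⟩ := List.mem_map.1 this
      exact hqe ▸ h1 q hq
    · exact (wval_lift (fun e => (D.lab e).getD 1) f _ _).trans h2
  bd_walk x := by
    have := walk_lift D.src D.tgt f (D.bd x.1.1) x.2 _ _ (D.bd_walk x.1.1)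
    rwa [x.1.2, add_zero] at this
  indep k hW h := indep_lift D f k hW h
  N := D.N
  v0 := (D.v0, 0)
  st k := lift f 0 (D.st k)
  st_zero := by simp [D.st_zero, lift]
  st_walk k hk := by
    have := walk_lift D.src D.tgt f (D.st k) 0 _ _ (D.st_walk k hk)
    rwa [D.esum_st hf k hk, add_zero] at this
  step k hk := by
    have key : ∀ l l', Ins D.bd (fun _ => True) l l' → (∀ p ∈ l', p.1 ∈ D.Eu) →
        Ins (fun x : D.Closed f × ℚ => lift f x.2 (D.bd x.1.1)) (fun _ => True)
          (lift f 0 l) (lift f 0 l') := by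
      rintro l l' ⟨A, B, blk, rfl, rfl, hblk⟩ hmem
      have hmemblk : ∀ p ∈ blk, p.1 ∈ D.Eu := fun p hp => hmem p (by simp [hp])
      have h0 : esum f blk = 0 ∧
          ((∃ e b, lift f (0 + esum f A) blk = [(e, b), (e, !b)]) ∨
            ∃ x : D.Closed f × ℚ, True ∧ (lift f (0 + esum f A) blk = lift f x.2 (D.bd x.1.1) ∨
              lift f (0 + esum f A) blk = FreeGroup.invRev (lift f x.2 (D.bd x.1.1)))) := by
        rcases hblk with ⟨e, b, rfl⟩ | ⟨c, -, hblk⟩
        · refine ⟨esum_pair f e b, Or.inl ?_⟩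
          refine ⟨(e, if b then 0 + esum f A else 0 + esum f A - f e), b, ?_⟩
          cases b <;> simp [lift, sgn] <;> ring
        have hc : esum f (D.bd c) = 0 := by
          refine hf c fun p hp => ?_
          rcases hblk with rfl | rfl
          · exact hmemblk p hp
          · refine hmemblk (p.1, !p.2) ?_
            simpa [FreeGroup.invRev] using hp
        rcases hblk with rfl | rfl
        · exact ⟨hc, Or.inr ⟨(⟨c, hc⟩, 0 + esum f A), trivial, Or.inl rfl⟩⟩
        · refine ⟨by rw [esum_invRev, hc, neg_zero],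
            Or.inr ⟨(⟨c, hc⟩, 0 + esum f A), trivial, Or.inr ?_⟩⟩
          have := lift_invRev f (0 + esum f A) (D.bd c)
          rwa [hc, add_zero] at this
      refine ⟨lift f 0 A, lift f (0 + esum f A) B, lift f (0 + esum f A) blk,
        lift_append f 0 A B, ?_, h0.2⟩
      rw [lift_append, lift_append, esum_append, h0.1, add_zero]
    rcases D.step k hk with h | h
    · exact Or.inl (key _ _ h fun p hp => D.mem_Eu (by omega) hp)
    · exact Or.inr (key _ _ h fun p hp => D.mem_Eu (by omega) hp)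

open Classical in
/-- The cover never shrinks; if it does not grow, the cocycle is a coboundary. -/
theorem Dg.cover_measure (D : Dg G) (f : D.E → ℚ) (hf : D.Cocycle f) :
    (D.cover f hf).measure < D.measure ∨
      ∃ p : D.V → ℚ, ∀ e ∈ D.Eu, f e = p (D.tgt e) - p (D.src e) := by
  obtain ⟨E', hE'⟩ : ∃ E' : Finset (D.E × ℚ), E' = (D.cover f hf).Eu := ⟨_, rfl⟩
  obtain ⟨V', hV'⟩ : ∃ V' : Finset (D.V × ℚ), V' = (D.cover f hf).Vu := ⟨_, rfl⟩
  have htot : (D.cover f hf).total = D.total := Finset.sum_congr rfl fun k _ => by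
    show (lift f 0 (D.st k)).length = (D.st k).length
    have := congrArg List.length (map_fst_lift f 0 (D.st k))
    simpa using this
  have hE : ∀ e ∈ D.Eu, ∃ r : ℚ, (e, r) ∈ E' := by
    intro e he
    obtain ⟨k, hk, hm⟩ := Finset.mem_biUnion.1 he
    rw [List.mem_toFinset, ← map_fst_lift f 0 (D.st k)] at hm
    obtain ⟨q, hq, hqe⟩ := List.mem_map.1 hm
    refine ⟨q.1.2, ?_⟩
    rw [hE', ← hqe]
    exact (D.cover f hf).mem_Eu (k := k) (Nat.lt_succ_iff.1 (Finset.mem_range.1 hk)) hq
  have hv0 : (D.v0, (0 : ℚ)) ∈ V' := hV' ▸ (D.cover f hf).v0_mem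
  have hsrc : ∀ {e r}, (e, r) ∈ E' → (D.src e, r) ∈ V' := by
    intro e r h; rw [hE'] at h; rw [hV']; exact (D.cover f hf).src_mem h
  have htgt : ∀ {e r}, (e, r) ∈ E' → (D.tgt e, r + f e) ∈ V' := by
    intro e r h; rw [hE'] at h; rw [hV']; exact (D.cover f hf).tgt_mem h
  have hEimg : D.Eu ⊆ E'.image Prod.fst := fun e he => by
    obtain ⟨r, hr⟩ := hE e he
    exact Finset.mem_image.2 ⟨(e, r), hr, rfl⟩
  have hVimg : D.Vu ⊆ V'.image Prod.fst := by
    intro v hv
    rcases Finset.mem_insert.1 hv with rfl | hv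
    · exact Finset.mem_image.2 ⟨_, hv0, rfl⟩
    rcases Finset.mem_union.1 hv with hv | hv <;> obtain ⟨e, he, rfl⟩ := Finset.mem_image.1 hv <;>
      obtain ⟨r, hr⟩ := hE e he
    · exact Finset.mem_image.2 ⟨_, hsrc hr, rfl⟩
    · exact Finset.mem_image.2 ⟨_, htgt hr, rfl⟩
  have h1 : D.Eu.card ≤ E'.card := (Finset.card_le_card hEimg).trans Finset.card_image_le
  have h2 : D.Vu.card ≤ (V'.image Prod.fst).card := Finset.card_le_card hVimg
  have h2' : (V'.image Prod.fst).card ≤ V'.card := Finset.card_image_le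
  have h3 := D.card_le.2
  have h4 : E'.card + V'.card ≤ 3 * D.total + 1 := by
    rw [hE', hV', ← htot]; exact (D.cover f hf).card_le.2
  have hm : (D.cover f hf).measure = 3 * D.total + 1 - (E'.card + V'.card) := by
    rw [hE', hV', ← htot]; rfl
  by_cases hlt : (D.cover f hf).measure < D.measure
  · exact Or.inl hlt
  refine Or.inr ?_
  rw [hm] at hlt
  simp only [Dg.measure, not_lt] at hlt
  have hinj := Finset.card_image_iff.1 (show (V'.image Prod.fst).card = V'.card by omega)
  refine ⟨fun v => if hv : ∃ r, (v, r) ∈ V' then hv.choose else 0, ?_⟩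
  intro e he
  obtain ⟨r, hr⟩ := hE e he
  have key : ∀ v r, (v, r) ∈ V' →
      (if hv : ∃ r, (v, r) ∈ V' then hv.choose else 0) = r := by
    intro v r hv
    rw [dif_pos ⟨r, hv⟩]
    have hs := Exists.choose_spec (⟨r, hv⟩ : ∃ r, (v, r) ∈ V')
    exact congrArg Prod.snd (hinj (Finset.mem_coe.2 hs) (Finset.mem_coe.2 hv) rfl)
  show f e = _ - _
  beta_reduce
  rw [key _ _ (htgt hr), key _ _ (hsrc hr)]
  ring

end Vale.Agent.P174.Howie
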