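import Vale.Agent.P174.Howie.Terminal

/-!
The one-vertex complex of a system and the derivation given by membership in the normal closure.
-/

namespace Vale.Agent.P174.Howie

open Monoid

section derive

variable {E C : Type}

/-- One move in either direction. -/
def Move (bd : C → List (E × Bool)) (l l' : List (E × Bool)) : Prop :=
  Ins bd (fun _ => True) l l' ∨ Ins bd (fun _ => True) l' l

theorem Move.symm' {bd : C → List (E × Bool)} {l l' : List (E × Bool)}
    (h : Move bd l l') : Move bd l' l := Or.symm h

/-- Finitely many moves. -/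
def Moves (bd : C → List (E × Bool)) : List (E × Bool) → List (E × Bool) → Prop :=
  Relation.ReflTransGen (Move bd)

theorem Moves.symm {bd : C → List (E × Bool)} {l l' : List (E × Bool)}
    (h : Moves bd l l') : Moves bd l' l := by
  unfold Moves at *
  induction h with
  | refl => exact .refl
  | tail _ h ih => exact ih.head (Move.symm' h)

theorem Moves.context {bd : C → List (E × Bool)} {l l' : List (E × Bool)}
    (h : Moves bd l l') (P Q : List (E × Bool)) : Moves bd (P ++ l ++ Q) (P ++ l' ++ Q) := by
  have key : ∀ {a b}, Ins bd (fun _ => True) a b →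
      Ins bd (fun _ => True) (P ++ a ++ Q) (P ++ b ++ Q) := by
    rintro a b ⟨A, B, blk, rfl, rfl, hblk⟩
    exact ⟨P ++ A, B ++ Q, blk, by simp [List.append_assoc], by simp [List.append_assoc], hblk⟩
  unfold Moves at *
  induction h with
  | refl => exact .refl
  | tail _ h ih => exact ih.tail (h.imp key key)

theorem Moves.of_mk_eq {bd : C → List (E × Bool)} {l l' : List (E × Bool)}
    (h : FreeGroup.mk l = FreeGroup.mk l') : Moves bd l l' := by
  have h' : Relation.EqvGen FreeGroup.Red.Step l l' := Quot.eqvGen_exact h
  induction h' with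
  | rel x y hs =>
    cases hs with
    | @not L₁ L₂ e b =>
      exact .single (Or.inr ⟨L₁, L₂, [(e, b), (e, !b)], rfl, by simp, Or.inl ⟨e, b, rfl⟩⟩)
  | refl => exact .refl
  | symm x y hxy ih => exact (ih (Quot.eqvGen_sound hxy)).symm
  | trans x y z hxy hyz ih₁ ih₂ =>
    exact (ih₁ (Quot.eqvGen_sound hxy)).trans (ih₂ (Quot.eqvGen_sound hyz))

/-- Elements all of whose words can be derived. -/
def derivable (bd : C → List (E × Bool)) : Subgroup (FreeGroup E) where
  carrier := {x | ∀ l, FreeGroup.mk l = x → Moves bd [] l}
  one_mem' l hl := Moves.of_mk_eq (hl.trans FreeGroup.one_eq_mk).symm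
  mul_mem' {x y} hx hy l hl := by
    obtain ⟨a, rfl⟩ := Quot.exists_rep x
    obtain ⟨b, rfl⟩ := Quot.exists_rep y
    have h1 : Moves bd [] a := hx a rfl
    have h2 : Moves bd (a ++ [] ++ []) (a ++ b ++ []) := (hy b rfl).context a []
    simp only [List.append_nil] at h2
    have h3 : Moves bd (a ++ b) l := Moves.of_mk_eq (by
      rw [← FreeGroup.mul_mk]; exact hl.symm)
    exact (h1.trans h2).trans h3
  inv_mem' {x} hx l hl := by
    obtain ⟨a, rfl⟩ := Quot.exists_rep x
    have h1 : Moves bd [] (FreeGroup.invRev a ++ a) := Moves.of_mk_eq (by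
      rw [← FreeGroup.mul_mk, ← FreeGroup.inv_mk, inv_mul_cancel, FreeGroup.one_eq_mk])
    have h2 : Moves bd (FreeGroup.invRev a ++ [] ++ []) (FreeGroup.invRev a ++ a ++ []) :=
      (hx a rfl).context _ []
    simp only [List.append_nil] at h2
    have h3 : Moves bd (FreeGroup.invRev a) l := Moves.of_mk_eq (by
      rw [← FreeGroup.inv_mk]; exact hl.symm)
    exact (h1.trans h2.symm).trans h3

instance derivable_normal (bd : C → List (E × Bool)) : (derivable bd).Normal := ⟨by
  intro x hx z l hl
  obtain ⟨a, rfl⟩ := Quot.exists_rep x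
  obtain ⟨c, rfl⟩ := Quot.exists_rep z
  have h1 : Moves bd [] (c ++ FreeGroup.invRev c) := Moves.of_mk_eq (by
    rw [← FreeGroup.mul_mk, ← FreeGroup.inv_mk, mul_inv_cancel, FreeGroup.one_eq_mk])
  have h2 : Moves bd (c ++ [] ++ FreeGroup.invRev c) (c ++ a ++ FreeGroup.invRev c) :=
    (hx a rfl).context c (FreeGroup.invRev c)
  simp only [List.append_nil] at h2
  have h3 : Moves bd (c ++ a ++ FreeGroup.invRev c) l := Moves.of_mk_eq (by
    rw [← FreeGroup.mul_mk, ← FreeGroup.mul_mk, ← FreeGroup.inv_mk]; exact hl.symm)
  exact (h1.trans h2).trans h3⟩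

theorem mk_bd_mem (bd : C → List (E × Bool)) (c : C) : FreeGroup.mk (bd c) ∈ derivable bd := by
  intro l hl
  have h : Move bd [] (bd c) :=
    Or.inl ⟨[], [], bd c, rfl, by simp, Or.inr ⟨c, trivial, Or.inl rfl⟩⟩
  exact Relation.ReflTransGen.trans (Relation.ReflTransGen.single h) (Moves.of_mk_eq hl.symm)

theorem exists_chain {bd : C → List (E × Bool)} {l : List (E × Bool)} (h : Moves bd [] l) :
    ∃ (N : ℕ) (st : ℕ → List (E × Bool)), st 0 = [] ∧ st N = l ∧
      ∀ k < N, Move bd (st k) (st (k + 1)) := by
  unfold Moves at h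
  induction h with
  | refl => exact ⟨0, fun _ => [], rfl, rfl, fun k hk => absurd hk (Nat.not_lt_zero k)⟩
  | @tail b c _ h ih =>
    obtain ⟨N, st, h0, hN, hs⟩ := ih
    refine ⟨N + 1, fun k => if k ≤ N then st k else c, by simp [h0], by simp, fun k hk => ?_⟩
    rcases Nat.lt_or_ge k N with hlt | hge
    · simpa [hlt.le, Nat.succ_le_of_lt hlt] using hs k hlt
    · obtain rfl : k = N := by omega
      simpa [hN] using h

end derive

theorem walk_unit {E : Type} : ∀ (l : List (E × Bool)),
    Walk (fun _ : E => ()) (fun _ : E => ()) () l ()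
  | [] => rfl
  | _ :: l => ⟨rfl, walk_unit l⟩

theorem wval_of {E : Type} (l : List (E × Bool)) :
    wval (FreeGroup.of : E → FreeGroup E) l = FreeGroup.mk l := by
  induction l with
  | nil => rfl
  | cons p l ih =>
    obtain ⟨e, b⟩ := p
    rw [wval_cons, ih]
    cases b <;> rfl

variable {G : Type} [Group G]

/-- The presentation map onto `G * F_n`. -/
def present (n : ℕ) : FreeGroup (G ⊕ Fin n) →* Coprod G (FreeGroup (Fin n)) :=
  FreeGroup.lift (Sum.elim (fun g => Coprod.inl g) fun j => Coprod.inr (FreeGroup.of j))

theorem present_surjective (n : ℕ) : Function.Surjective (present (G := G) n) := by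
  intro x
  induction x using Coprod.induction_on with
  | inl g => exact ⟨FreeGroup.of (Sum.inl g), by simp [present]⟩
  | inr u =>
    refine ⟨FreeGroup.map Sum.inr u, ?_⟩
    have : (present (G := G) n).comp (FreeGroup.map Sum.inr) = Coprod.inr :=
      FreeGroup.ext_hom _ _ fun j => by simp [present]
    exact DFunLike.congr_fun this u
  | mul a b ha hb =>
    obtain ⟨a', rfl⟩ := ha
    obtain ⟨b', rfl⟩ := hb
    exact ⟨a' * b', map_mul _ _ _⟩

theorem linearIndependent_of_nonsingular {m n : ℕ} {w : Fin m → Coprod G (FreeGroup (Fin n))}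
    (hw : Nonsingular w) :
    LinearIndependent ℚ ((expMatrix w).map (Int.cast : ℤ → ℚ)).row := by
  rw [linearIndependent_iff_card_eq_finrank_span, Set.finrank, ← Matrix.rank_eq_finrank_span_row,
    hw, Fintype.card_fin]

/-- Howie's theorem in relative form. -/
theorem howieSolvable_of_subgroups
    (H : ∀ L : Subgroup G, L.FG → (∀ φ : L →* Multiplicative ℚ, φ = 1) → HowieSolvable L) :
    HowieSolvable G := by
  classical
  intro m n w hw
  choose r hr using fun i => present_surjective n (w i)
  let C := (G × G) ⊕ Fin m
  let bd : C → List ((G ⊕ Fin n) × Bool) := Sum.elim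
    (fun ab => [(Sum.inl ab.1, true), (Sum.inl ab.2, true), (Sum.inl (ab.1 * ab.2), false)])
    (fun i => (r i).toWord)
  let q := QuotientGroup.mk' (derivable bd)
  let ιG : G →* FreeGroup (G ⊕ Fin n) ⧸ derivable bd :=
    MonoidHom.mk' (fun g => q (FreeGroup.of (Sum.inl g))) fun a b => by
      have h := (QuotientGroup.eq_one_iff _).2 (mk_bd_mem bd (Sum.inl (a, b)))
      have h2 : q (FreeGroup.of (Sum.inl a) * FreeGroup.of (Sum.inl b) *
          (FreeGroup.of (Sum.inl (a * b)))⁻¹) = 1 := h
      rw [map_mul, map_inv, mul_inv_eq_one, map_mul] at h2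
      exact h2.symm
  let σ : Coprod G (FreeGroup (Fin n)) →* FreeGroup (G ⊕ Fin n) ⧸ derivable bd :=
    Coprod.lift ιG (FreeGroup.lift fun j => q (FreeGroup.of (Sum.inr j)))
  have hσ : σ.comp (present n) = q := by
    refine FreeGroup.ext_hom _ _ fun e => ?_
    cases e <;> simp [σ, ιG, present]
  have hker : Subgroup.normalClosure (Set.range w) ≤ σ.ker := by
    refine Subgroup.normalClosure_le_normal ?_
    rintro _ ⟨i, rfl⟩
    rw [SetLike.mem_coe, MonoidHom.mem_ker, ← hr i]
    refine (DFunLike.congr_fun hσ (r i)).trans ((QuotientGroup.eq_one_iff _).2 ?_)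
    have h := mk_bd_mem bd (Sum.inr i)
    simpa [bd, FreeGroup.mk_toWord] using h
  let K := Coprod G (FreeGroup (Fin n)) ⧸ Subgroup.normalClosure (Set.range w)
  let π := QuotientGroup.mk' (Subgroup.normalClosure (Set.range w))
  refine ⟨K, inferInstance, π.comp Coprod.inl, fun j => π (Coprod.inr (FreeGroup.of j)), ?_, ?_⟩
  swap
  · intro i
    have h : Coprod.lift (π.comp Coprod.inl)
        (FreeGroup.lift fun j => π (Coprod.inr (FreeGroup.of j))) = π := by
      refine Coprod.hom_ext ?_ ?_
      · ext g; simp
      · exact FreeGroup.ext_hom _ _ fun j => by simp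
    rw [h]
    exact (QuotientGroup.eq_one_iff _).2 (Subgroup.subset_normalClosure ⟨i, rfl⟩)
  refine (injective_iff_map_eq_one _).2 fun g hg => ?_
  have hg' : (Coprod.inl g : Coprod G (FreeGroup (Fin n))) ∈ Subgroup.normalClosure (Set.range w) :=
    (QuotientGroup.eq_one_iff _).1 hg
  have hmem : FreeGroup.of (Sum.inl g) ∈ derivable bd := by
    refine (QuotientGroup.eq_one_iff _).1 ?_
    have := hker hg'
    simpa [MonoidHom.mem_ker, σ, ιG, q] using this
  obtain ⟨N, st, h0, hN, hstep⟩ := exists_chain (hmem [(Sum.inl g, true)] rfl)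
  let D : Dg G :=
    { V := Unit
      E := G ⊕ Fin n
      C := C
      src := fun _ => ()
      tgt := fun _ => ()
      lab := Sum.elim some fun _ => none
      bd := bd
      base := fun _ => ()
      isW := fun c => c.isRight
      rel := by
        rintro (⟨a, b⟩ | i) hc
        · refine ⟨by simp [bd], ?_⟩
          simp [bd, wval, lval]
        · simp at hc
      bd_walk := fun c => walk_unit _
      indep := by
        intro k hk hsum
        have hinj : Function.Injective (Sum.inr : Fin m → C) := Sum.inr_injective
        have hk' : k = (k.comapDomain Sum.inr hinj.injOn).mapDomain Sum.inr := by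
          rw [Finsupp.mapDomain_comapDomain _ hinj]
          intro c hc
          rcases c with c | i
          · simpa using hk _ hc
          · exact ⟨i, rfl⟩
        suffices k.comapDomain Sum.inr hinj.injOn = 0 by rw [hk', this, Finsupp.mapDomain_zero]
        generalize hl : k.comapDomain Sum.inr hinj.injOn = l at hk'
        have hli := Fintype.linearIndependent_iff.1 (linearIndependent_of_nonsingular hw) l
          (funext fun j => ?_)
        · exact Finsupp.ext hli
        · have h := hsum (fun e => if e = Sum.inr j then 1 else 0) (fun e he => by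
            rcases e with g' | j'
            · simp
            · simp at he)
          rw [hk', Finsupp.sum_mapDomain_index (fun _ => by simp) (fun _ _ _ => by ring),
            Finsupp.sum_fintype _ _ (fun _ => by simp)] at h
          simp only [Finset.sum_apply, Pi.smul_apply, smul_eq_mul, Matrix.row_apply,
            Matrix.map_apply, Pi.zero_apply]
          refine Eq.trans (Finset.sum_congr rfl fun i _ => ?_) h
          congr 1
          simp only [expMatrix, Matrix.of_apply, bd, Sum.elim_inr]
          rw [← hr i]
          conv_lhs => rw [← FreeGroup.mk_toWord (x := r i), ← wval_of, wval_map]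
          refine (esum_hom (expVec n) ((Int.castAddHom ℚ).comp
            (Pi.evalAddMonoidHom (fun _ => ℤ) j)) _ (r i).toWord).symm.trans ?_
          refine esum_congr fun p _ => ?_
          rcases p.1 with g' | j'
          · simp [present, expVec]
          · by_cases hj : j' = j
            · subst hj; simp [present, expVec]
            · simp [present, expVec, hj]
      N := N
      v0 := ()
      st := st
      st_zero := h0
      st_walk := fun k _ => walk_unit _
      step := hstep }
  have h := D.sound H (by
    intro p hp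
    change p ∈ st N at hp
    rw [hN, List.mem_singleton] at hp
    subst hp
    simp [D])
  change wval D.gl (st N) = 1 at h
  rw [hN] at h
  simpa [D, Dg.gl, wval, lval] using h

end Vale.Agent.P174.Howie
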