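import Vale.Agent.P174.Notions
import Vale.Agent.P174.Howie.Complex

/-!
A derivation of a coefficient word forces it to be trivial (Howie's tower argument).
-/

namespace Vale.Agent.P174.Howie

open Monoid

variable {G : Type} [Group G]

/-- Every nonsingular finite system over the group is solvable over it. -/
def HowieSolvable (G : Type) [Group G] : Prop :=
  ∀ (m n : ℕ) (w : Fin m → Coprod G (FreeGroup (Fin n))), Nonsingular w → SolvableOver w

section words

variable {E V K H : Type} [Group K] [Group H]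

theorem wval_cons (a : E → K) (p : E × Bool) (l : List (E × Bool)) :
    wval a (p :: l) = lval a p * wval a l := by simp [wval]

theorem wval_map (ψ : K →* H) (a : E → K) (l : List (E × Bool)) :
    ψ (wval a l) = wval (fun e => ψ (a e)) l := by
  induction l with
  | nil => simp [wval]
  | cons p l ih =>
    obtain ⟨e, b⟩ := p
    rw [wval_cons, wval_cons, map_mul, ih]
    cases b <;> simp [lval]

theorem wval_congr {a b : E → K} {l : List (E × Bool)} (h : ∀ p ∈ l, a p.1 = b p.1) :
    wval a l = wval b l := by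
  induction l with
  | nil => rfl
  | cons p l ih =>
    rw [wval_cons, wval_cons, ih fun q hq => h q (List.mem_cons_of_mem _ hq)]
    simp [lval, h p List.mem_cons_self]

theorem wval_gauge (src tgt : E → V) (lab : E → K) (γ : V → K) :
    ∀ (l : List (E × Bool)) (v w : V), Walk src tgt v l w →
      wval (fun e => γ (src e) * lab e * (γ (tgt e))⁻¹) l = γ v * wval lab l * (γ w)⁻¹ := by
  intro l
  induction l with
  | nil => intro v w h; simp only [Walk] at h; subst h; simp [wval]
  | cons p l ih =>
    intro v w h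
    obtain ⟨e, b⟩ := p
    obtain ⟨h1, h2⟩ := h
    rw [wval_cons, wval_cons, ih _ w h2]
    cases b <;> simp [lsrc, ltgt, lval] at * <;> subst h1 <;> group

theorem esum_hom {A : Type} [AddCommGroup A] (ψ : K →* Multiplicative A) (c : A →+ ℚ) (a : E → K)
    (l : List (E × Bool)) :
    esum (fun e => c (Multiplicative.toAdd (ψ (a e)))) l =
      c (Multiplicative.toAdd (ψ (wval a l))) := by
  induction l with
  | nil => simp [wval, esum]
  | cons p l ih =>
    obtain ⟨e, b⟩ := p
    rw [wval_cons, map_mul, toAdd_mul, map_add, ← ih]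
    cases b <;> simp [esum, lval, sgn]

theorem esum_add (φ ψ : E → ℚ) (l : List (E × Bool)) :
    esum (fun e => φ e + ψ e) l = esum φ l + esum ψ l := by
  induction l with
  | nil => simp [esum]
  | cons p l ih => obtain ⟨e, b⟩ := p; simp [esum, ih]; ring

theorem esum_congr {φ ψ : E → ℚ} {l : List (E × Bool)} (h : ∀ p ∈ l, φ p.1 = ψ p.1) :
    esum φ l = esum ψ l := by
  induction l with
  | nil => rfl
  | cons p l ih =>
    obtain ⟨e, b⟩ := p
    simp [esum, ih fun q hq => h q (List.mem_cons_of_mem _ hq), h (e, b) List.mem_cons_self]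

theorem esum_zero' (l : List (E × Bool)) : esum (fun _ : E => (0 : ℚ)) l = 0 := by
  induction l with
  | nil => rfl
  | cons p l ih => obtain ⟨e, b⟩ := p; simp [esum, ih]

theorem esum_expand {ι : Type} [Fintype ι] (g : ι → ℚ) (χ : ι → E → ℚ) :
    ∀ l : List (E × Bool), esum (fun e => ∑ i, g i * χ i e) l = ∑ i, g i * esum (χ i) l := by
  intro l
  induction l with
  | nil => simp [esum]
  | cons p l ih =>
    obtain ⟨e, b⟩ := p
    simp only [esum, ih, mul_add, Finset.sum_add_distrib, Finset.mul_sum]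
    congr 1
    exact Finset.sum_congr rfl fun i _ => by ring

end words

/-- Joined by used coefficient edges, with the given value. -/
inductive Conn (D : Dg G) (r : D.V) : D.V → G → Prop
  | refl : Conn D r r 1
  | fwd {e : D.E} {a : G} : Conn D r (D.src e) a → e ∈ D.Eu → D.lab e ≠ none →
      Conn D r (D.tgt e) (a * D.gl e)
  | bwd {e : D.E} {a : G} : Conn D r (D.tgt e) a → e ∈ D.Eu → D.lab e ≠ none →
      Conn D r (D.src e) (a * (D.gl e)⁻¹)

/-- Adjacency by a used coefficient edge. -/
def Dg.Adj (D : Dg G) (v w : D.V) : Prop :=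
  ∃ e ∈ D.Eu, D.lab e ≠ none ∧ D.src e = v ∧ D.tgt e = w

/-- A chosen root in each coefficient component. -/
noncomputable def Dg.root (D : Dg G) (v : D.V) : D.V := (Quot.mk D.Adj v).out

theorem Dg.exists_conn (D : Dg G) (v : D.V) : ∃ a, Conn D (D.root v) v a := by
  have h : Relation.EqvGen D.Adj (D.root v) v :=
    Quot.eqvGen_exact (Quot.out_eq (Quot.mk D.Adj v))
  have key : ∀ r x y, Relation.EqvGen D.Adj x y →
      ((∃ a, Conn D r x a) ↔ ∃ a, Conn D r y a) := by
    intro r x y hxy
    induction hxy with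
    | rel x y h =>
      obtain ⟨e, he, hl, rfl, rfl⟩ := h
      exact ⟨fun ⟨a, ha⟩ => ⟨_, ha.fwd he hl⟩, fun ⟨a, ha⟩ => ⟨_, ha.bwd he hl⟩⟩
    | refl => rfl
    | symm _ _ _ ih => exact ih.symm
    | trans _ _ _ _ _ ih₁ ih₂ => exact ih₁.trans ih₂
  exact (key _ _ _ h).1 ⟨1, .refl⟩

/-- Value of a chosen path from the root. -/
noncomputable def Dg.gauge (D : Dg G) (v : D.V) : G := (D.exists_conn v).choose

/-- The gauged label. -/
noncomputable def Dg.slab (D : Dg G) (e : D.E) : G :=
  D.gauge (D.src e) * D.gl e * (D.gauge (D.tgt e))⁻¹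

/-- The gauged coefficient labels of used edges. -/
noncomputable def Dg.gens (D : Dg G) : Set G := D.slab '' {e | e ∈ D.Eu ∧ D.lab e ≠ none}

/-- The group generated by the used coefficient labels, after gauging. -/
noncomputable def Dg.L (D : Dg G) : Subgroup G := Subgroup.closure D.gens

theorem Dg.L_fg (D : Dg G) : D.L.FG := by
  classical
  refine ⟨(D.Eu.filter fun e => D.lab e ≠ none).image D.slab, ?_⟩
  rw [Dg.L, Dg.gens]
  congr 1
  ext x
  simp

open Classical in
/-- The gauged label inside `L`. -/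
noncomputable def Dg.llab (D : Dg G) (e : D.E) : D.L :=
  if h : e ∈ D.Eu ∧ D.lab e ≠ none then ⟨D.slab e, Subgroup.subset_closure ⟨e, h, rfl⟩⟩ else 1

theorem Dg.wval_llab (D : Dg G) {v w : D.V} {l : List (D.E × Bool)}
    (hl : ∀ p ∈ l, p.1 ∈ D.Eu ∧ D.lab p.1 ≠ none) (hwalk : Walk D.src D.tgt v l w) :
    ((wval D.llab l : D.L) : G) = D.gauge v * wval D.gl l * (D.gauge w)⁻¹ := by
  rw [show ((wval D.llab l : D.L) : G) = wval (fun e => ((D.llab e : D.L) : G)) l from
    wval_map D.L.subtype _ _]
  rw [wval_congr (b := D.slab) fun p hp => by simp [Dg.llab, hl p hp]]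
  exact wval_gauge D.src D.tgt D.gl D.gauge l v w hwalk

theorem Dg.rel_llab (D : Dg G) {c : D.C} (hc : ¬ D.isW c) (hu : ∀ p ∈ D.bd c, p.1 ∈ D.Eu) :
    wval D.llab (D.bd c) = 1 := by
  obtain ⟨h1, h2⟩ := D.rel c hc
  refine Subtype.ext ?_
  rw [D.wval_llab (fun p hp => ⟨hu p hp, h1 p hp⟩) (D.bd_walk c)]
  rw [show wval D.gl (D.bd c) = 1 from h2]
  simp

/-- The used unknown edges. -/
abbrev Dg.Unk (D : Dg G) : Type := {e : D.E // e ∈ D.Eu ∧ D.lab e = none}

/-- The equation cells inside the used part. -/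
abbrev Dg.Cw (D : Dg G) : Type := {c : D.C // D.isW c ∧ ∀ p ∈ D.bd c, p.1 ∈ D.Eu}

noncomputable instance (D : Dg G) : Fintype D.Unk := by
  classical
  exact Fintype.subtype (D.Eu.filter fun e => D.lab e = none) (by simp)

open Classical in
/-- The row of a cell: signed numbers of occurrences of the used unknown edges. -/
noncomputable def Dg.row (D : Dg G) (c : D.Cw) : D.Unk → ℚ :=
  fun i => esum (fun e => if e = i.1 then 1 else 0) (D.bd c.1)

theorem Dg.row_independent (D : Dg G) : LinearIndependent ℚ D.row := by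
  classical
  rw [linearIndependent_iff]
  intro k hk
  let k' : D.C →₀ ℚ := k.mapDomain Subtype.val
  suffices k' = 0 by
    exact Finsupp.mapDomain_injective Subtype.val_injective (this.trans (Finsupp.mapDomain_zero).symm)
  refine D.indep k' (fun c hc => ?_) fun φ hφ => ?_
  · obtain ⟨x, -, rfl⟩ := Finset.mem_image.1 (Finsupp.mapDomain_support hc)
    exact x.2.1
  · rw [Finsupp.sum_mapDomain_index (fun _ => by simp) (fun _ _ _ => by ring)]
    have hexp : ∀ c : D.Cw, esum φ (D.bd c.1) = ∑ i : D.Unk, φ i.1 * D.row c i := by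
      intro c
      simp only [Dg.row]
      rw [← esum_expand]
      refine esum_congr fun p hp => ?_
      by_cases hn : D.lab p.1 = none
      · rw [Finset.sum_eq_single ⟨p.1, c.2.2 p hp, hn⟩ (fun i _ hi => ?_) (by simp)]
        · simp
        · rw [if_neg fun h => hi (Subtype.ext h.symm), mul_zero]
      · rw [hφ _ hn, Finset.sum_eq_zero fun i _ => ?_]
        rw [if_neg fun (h : p.1 = i.1) => hn (h ▸ i.2.2), mul_zero]
    simp only [hexp, Finsupp.sum, Finset.mul_sum]
    rw [Finset.sum_comm]
    refine Finset.sum_eq_zero fun i _ => ?_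
    have := congrFun hk i
    rw [Finsupp.linearCombination_apply] at this
    simp only [Finsupp.sum, Finset.sum_apply, Pi.smul_apply, smul_eq_mul, Pi.zero_apply] at this
    rw [show ∑ x ∈ k.support, k x * (φ i.1 * D.row x i) =
      φ i.1 * ∑ x ∈ k.support, k x * D.row x i by
      rw [Finset.mul_sum]; exact Finset.sum_congr rfl fun x _ => by ring, this, mul_zero]

/-- A nontrivial homomorphism of `L` to the rationals gives a cocycle that is no coboundary. -/
theorem Dg.exists_cocycle (D : Dg G) (φ : D.L →* Multiplicative ℚ) (hφ : φ ≠ 1) :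
    ∃ f : D.E → ℚ, D.Cocycle f ∧
      ¬ ∃ p : D.V → ℚ, ∀ e ∈ D.Eu, f e = p (D.tgt e) - p (D.src e) := by
  classical
  let f0 : D.E → ℚ := fun e => Multiplicative.toAdd (φ (D.llab e))
  let target : D.Cw → ℚ := fun c => - esum f0 (D.bd c.1)
  obtain ⟨P, hP⟩ := (Finsupp.linearCombination ℚ D.row).exists_leftInverse_of_injective
    (LinearMap.ker_eq_bot.2 D.row_independent)
  let T : (D.Unk → ℚ) →ₗ[ℚ] ℚ := (Finsupp.linearCombination ℚ target).comp P
  let g : D.E → ℚ := fun e =>
    ∑ i : D.Unk, T (Pi.single i 1) * (if e = i.1 then 1 else 0)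
  have hgcoef : ∀ e, D.lab e ≠ none → g e = 0 := fun e he =>
    Finset.sum_eq_zero fun i _ => by
      rw [if_neg fun (h : e = i.1) => he (h ▸ i.2.2), mul_zero]
  refine ⟨fun e => f0 e + g e, fun c hu => ?_, ?_⟩
  · rw [esum_add]
    by_cases hc : D.isW c
    · have hT : T (D.row ⟨c, hc, hu⟩) = target ⟨c, hc, hu⟩ := by
        have h := LinearMap.congr_fun hP (Finsupp.single ⟨c, hc, hu⟩ 1)
        simp at h
        simp [T, h]
      have hsum : esum g (D.bd c) = T (D.row ⟨c, hc, hu⟩) := by
        conv_rhs => rw [pi_eq_sum_univ' (D.row ⟨c, hc, hu⟩)]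
        simp only [map_sum, map_smul, g, esum_expand]
        refine Finset.sum_congr rfl fun i _ => ?_
        rw [smul_eq_mul, mul_comm]
        rfl
      rw [hsum, hT]
      simp [target]
    · have h1 := (D.rel c hc).1
      rw [esum_congr (φ := g) (ψ := fun _ => 0) fun p hp => hgcoef _ (h1 p hp), esum_zero',
        add_zero]
      refine (esum_hom φ (AddMonoidHom.id ℚ) D.llab (D.bd c)).trans ?_
      simp [D.rel_llab hc hu]
  · rintro ⟨p, hp⟩
    apply hφ
    have hedge : ∀ e (he : e ∈ D.Eu) (hl : D.lab e ≠ none),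
        Multiplicative.toAdd (φ ⟨D.slab e, Subgroup.subset_closure ⟨e, ⟨he, hl⟩, rfl⟩⟩) =
          p (D.tgt e) - p (D.src e) := by
      intro e he hl
      have h := hp e he
      simp only [hgcoef e hl, add_zero] at h
      rw [← h]
      simp [f0, Dg.llab, he, hl]
    have hconn : ∀ {r v a}, Conn D r v a → ∃ x : D.L,
        (x : G) = D.gauge r * a * (D.gauge v)⁻¹ ∧ Multiplicative.toAdd (φ x) = p v - p r := by
      intro r v a h
      induction h with
      | refl => exact ⟨1, by simp, by simp⟩
      | @fwd e a _ he hl ih =>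
        obtain ⟨x, hx1, hx2⟩ := ih
        refine ⟨x * ⟨D.slab e, Subgroup.subset_closure ⟨e, ⟨he, hl⟩, rfl⟩⟩, ?_, ?_⟩
        · simp only [Subgroup.coe_mul, hx1, Dg.slab]; group
        · rw [map_mul, toAdd_mul, hx2, hedge e he hl]; ring
      | @bwd e a _ he hl ih =>
        obtain ⟨x, hx1, hx2⟩ := ih
        refine ⟨x * (⟨D.slab e, Subgroup.subset_closure ⟨e, ⟨he, hl⟩, rfl⟩⟩ : D.L)⁻¹, ?_, ?_⟩
        · simp only [Subgroup.coe_mul, Subgroup.coe_inv, hx1, Dg.slab]; group
        · rw [map_mul, map_inv, toAdd_mul, toAdd_inv, hx2, hedge e he hl]; ring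
    have hroot : ∀ v, p v = p (D.root v) := by
      intro v
      have hrr : D.root (D.root v) = D.root v := by
        unfold Dg.root; rw [Quot.out_eq]
      obtain ⟨x, hx1, hx2⟩ := hconn (D.exists_conn v).choose_spec
      obtain ⟨y, hy1, hy2⟩ := hconn (D.exists_conn (D.root v)).choose_spec
      rw [hrr] at hy2
      change (x : G) = D.gauge (D.root v) * D.gauge v * (D.gauge v)⁻¹ at hx1
      have hy1' : (y : G) = D.gauge (D.root v) := by
        rw [hy1]
        show D.gauge (D.root (D.root v)) * D.gauge (D.root v) * (D.gauge (D.root v))⁻¹ = _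
        rw [hrr]
        group
      have hxy : x = y := Subtype.ext (by rw [hx1, hy1']; group)
      rw [hxy, hy2] at hx2
      linarith
    have hgen : ∀ e (he : e ∈ D.Eu) (hl : D.lab e ≠ none),
        φ ⟨D.slab e, Subgroup.subset_closure ⟨e, ⟨he, hl⟩, rfl⟩⟩ = 1 := by
      intro e he hl
      have h := hedge e he hl
      have : D.root (D.src e) = D.root (D.tgt e) :=
        congrArg Quot.out (Quot.sound ⟨e, he, hl, rfl, rfl⟩)
      rw [hroot (D.tgt e), hroot (D.src e), this, sub_self] at h
      exact toAdd_eq_zero.1 h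
    refine MonoidHom.ext fun ⟨x, hx⟩ => ?_
    rw [MonoidHom.one_apply]
    induction hx using Subgroup.closure_induction with
    | mem z hz => obtain ⟨e, ⟨he, hl⟩, rfl⟩ := hz; exact hgen e he hl
    | one => exact map_one φ
    | mul a b ha hb iha ihb =>
      exact (map_mul φ ⟨a, ha⟩ ⟨b, hb⟩).trans (by rw [iha, ihb, one_mul])
    | inv a ha iha => exact (map_inv φ ⟨a, ha⟩).trans (by rw [iha, inv_one])

/-- If the labels of `L` have solvable systems, the derived word has trivial value. -/
theorem Dg.sound_of_solvable (D : Dg G) (hL : HowieSolvable D.L)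
    (hcoef : ∀ p ∈ D.st D.N, D.lab p.1 ≠ none) : wval D.gl (D.st D.N) = 1 := by
  classical
  have : Finite D.Cw := D.row_independent.finite
  have := Fintype.ofFinite D.Cw
  let m := Fintype.card D.Cw
  let n := Fintype.card D.Unk
  let ec : D.Cw ≃ Fin m := Fintype.equivFin D.Cw
  let eu : D.Unk ≃ Fin n := Fintype.equivFin D.Unk
  let X : D.E → Coprod D.L (FreeGroup (Fin n)) := fun e =>
    if h : e ∈ D.Eu ∧ D.lab e = none then Coprod.inr (FreeGroup.of (eu ⟨e, h⟩))
    else Coprod.inl (D.llab e)
  let w : Fin m → Coprod D.L (FreeGroup (Fin n)) := fun i => wval X (D.bd (ec.symm i).1)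
  have hrows : ∀ i j, ((expMatrix w i j : ℤ) : ℚ) = D.row (ec.symm i) (eu.symm j) := by
    intro i j
    simp only [expMatrix, Matrix.of_apply, w]
    refine (esum_hom (expVec n) ((Int.castAddHom ℚ).comp (Pi.evalAddMonoidHom (fun _ => ℤ) j)) X
      (D.bd (ec.symm i).1)).symm.trans ?_
    refine esum_congr fun p hp => ?_
    by_cases h : p.1 ∈ D.Eu ∧ D.lab p.1 = none
    · simp only [X, dif_pos h]
      by_cases hj : eu ⟨p.1, h⟩ = j
      · subst hj; simp [expVec]
      · have hne : p.1 ≠ (eu.symm j).1 := fun h' => hj (by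
          rw [show (⟨p.1, h⟩ : D.Unk) = eu.symm j from Subtype.ext h', Equiv.apply_symm_apply])
        simp [expVec, hne, Pi.single_eq_of_ne' hj]
    · simp only [X, dif_neg h]
      rw [if_neg fun (h' : p.1 = (eu.symm j).1) => h (h' ▸ (eu.symm j).2)]
      simp [expVec]
  have hns : Nonsingular w := by
    have hli : LinearIndependent ℚ ((expMatrix w).map (Int.cast : ℤ → ℚ)).row := by
      have h := (D.row_independent.comp ec.symm ec.symm.injective).map'
        (LinearEquiv.funCongrLeft ℚ ℚ eu.symm).toLinearMap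
        (LinearEquiv.funCongrLeft ℚ ℚ eu.symm).ker
      have hEq : ((expMatrix w).map (Int.cast : ℤ → ℚ)).row =
          ⇑(LinearEquiv.funCongrLeft ℚ ℚ eu.symm).toLinearMap ∘ (D.row ∘ ec.symm) :=
        funext fun i => funext fun j => hrows i j
      rw [hEq]
      exact h
    simpa [Nonsingular] using hli.rank_matrix
  obtain ⟨K, _, φ, x, hφ, hx⟩ := hL m n w hns
  let ev : Coprod D.L (FreeGroup (Fin n)) →* K := Coprod.lift φ (FreeGroup.lift x)
  let y : D.E → K := fun e => ev (X e)
  have hcoefy : ∀ l : List (D.E × Bool), (∀ p ∈ l, D.lab p.1 ≠ none) →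
      wval y l = φ (wval D.llab l) := by
    intro l hl
    rw [wval_map φ]
    refine wval_congr fun p hp => ?_
    simp [y, X, ev, hl p hp]
  have hcell : ∀ c, (∀ p ∈ D.bd c, p.1 ∈ D.Eu) → wval y (D.bd c) = 1 := by
    intro c hu
    by_cases hc : D.isW c
    · have := hx (ec ⟨c, hc, hu⟩)
      simp only [w, Equiv.symm_apply_apply] at this
      rw [← this]
      exact (wval_map ev X _).symm
    · rw [hcoefy _ (D.rel c hc).1, D.rel_llab hc hu, map_one]
  have key : ∀ l l', Ins D.bd (fun _ => True) l l' → (∀ p ∈ l', p.1 ∈ D.Eu) →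
      wval y l' = wval y l := by
    rintro l l' ⟨A, B, blk, rfl, rfl, hblk⟩ hmem
    have h0 : wval y blk = 1 := by
      rcases hblk with ⟨e, b, rfl⟩ | ⟨c, -, rfl | rfl⟩
      · exact wval_pair y e b
      · exact hcell c fun p hp => hmem p (by simp [hp])
      · rw [wval_invRev, hcell c, inv_one]
        intro p hp
        refine hmem (p.1, !p.2) (List.mem_append_left _ (List.mem_append_right _ ?_))
        simpa [FreeGroup.invRev] using hp
    simp only [wval_append, h0, mul_one]
  have hall : ∀ k ≤ D.N, wval y (D.st k) = 1 := by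
    intro k
    induction k with
    | zero => intro _; simp [D.st_zero, wval]
    | succ k ih =>
      intro hk
      rcases D.step k (by omega) with h | h
      · rw [key _ _ h fun p hp => D.mem_Eu hk hp, ih (by omega)]
      · rw [← key _ _ h fun p hp => D.mem_Eu (by omega) hp, ih (by omega)]
  have hN := hall D.N le_rfl
  rw [hcoefy _ hcoef] at hN
  have h1 := congrArg (fun z : D.L => (z : G)) (hφ (hN.trans (map_one φ).symm))
  simp only [Subgroup.coe_one] at h1
  rw [D.wval_llab (fun p hp => ⟨D.mem_Eu le_rfl hp, hcoef p hp⟩) (D.st_walk D.N le_rfl)] at h1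
  exact conj_eq_one_iff.1 h1

/-- Soundness: under the hypothesis on finitely generated subgroups without maps onto `ℤ`, a
derived coefficient word has trivial value. -/
theorem Dg.sound
    (H : ∀ L : Subgroup G, L.FG → (∀ φ : L →* Multiplicative ℚ, φ = 1) → HowieSolvable L) :
    ∀ D : Dg G, (∀ p ∈ D.st D.N, D.lab p.1 ≠ none) → wval D.gl (D.st D.N) = 1 := by
  intro D
  induction hμ : D.measure using Nat.strong_induction_on generalizing D with
  | _ μ ih =>
    intro hcoef
    by_cases hφ : ∀ φ : D.L →* Multiplicative ℚ, φ = 1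
    · exact D.sound_of_solvable (H D.L D.L_fg hφ) hcoef
    · push_neg at hφ
      obtain ⟨φ, hφ⟩ := hφ
      obtain ⟨f, hf, hnc⟩ := D.exists_cocycle φ hφ
      rcases D.cover_measure f hf with hlt | hp
      · have := ih _ (hμ ▸ hlt) (D.cover f hf) rfl (fun p hp => ?_)
        · exact (wval_lift D.gl f 0 (D.st D.N)).symm.trans this
        · have hm : p.1.1 ∈ (lift f 0 (D.st D.N)).map (fun x => x.1.1) :=
            List.mem_map.2 ⟨p, hp, rfl⟩
          rw [map_fst_lift] at hm
          obtain ⟨q, hq, hqe⟩ := List.mem_map.1 hm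
          exact (hqe ▸ hcoef q hq : D.lab p.1.1 ≠ none)
      · exact absurd hp hnc

end Vale.Agent.P174.Howie
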